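import Mathlib.Analysis.Complex.Exponential
import Mathlib.Data.Fintype.BigOperators
import Mathlib.Algebra.Order.BigOperators.Group.Finset

/-! Cut pseudometrics (finite nonnegative combinations of cuts), for the upper bound on the L1
distortion of edit distance (P238). -/

namespace Vale.Agent.P238U

/-- The weighted number of cuts separating two points. -/
def cutDist {ι X : Type} [Fintype ι] (w : ι → ℝ) (χ : ι → X → Bool) (a b : X) : ℝ :=
  ∑ i, if χ i a = χ i b then 0 else w i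

/-- `D` is a finite nonnegative combination of cuts. -/
def IsCut {X : Type} (D : X → X → ℝ) : Prop :=
  ∃ (ι : Type) (_ : Fintype ι) (w : ι → ℝ) (χ : ι → X → Bool),
    (∀ i, 0 ≤ w i) ∧ ∀ a b, D a b = cutDist w χ a b

theorem IsCut.comm {X : Type} {D : X → X → ℝ} (h : IsCut D) (a b : X) : D a b = D b a := by
  obtain ⟨ι, _, w, χ, -, hD⟩ := h
  simp only [hD, cutDist, eq_comm]

theorem IsCut.nonneg {X : Type} {D : X → X → ℝ} (h : IsCut D) (a b : X) : 0 ≤ D a b := by
  obtain ⟨ι, _, w, χ, hw, hD⟩ := h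
  rw [hD]
  exact Finset.sum_nonneg fun i _ => by split_ifs <;> simp [hw i]

theorem IsCut.comap {X Y : Type} {D : X → X → ℝ} (h : IsCut D) (f : Y → X) :
    IsCut fun a b => D (f a) (f b) := by
  obtain ⟨ι, _, w, χ, hw, hD⟩ := h
  exact ⟨ι, inferInstance, w, fun i y => χ i (f y), hw, fun a b => hD _ _⟩

theorem IsCut.smul {X : Type} {D : X → X → ℝ} (h : IsCut D) {c : ℝ} (hc : 0 ≤ c) :
    IsCut fun a b => c * D a b := by
  obtain ⟨ι, _, w, χ, hw, hD⟩ := h
  refine ⟨ι, inferInstance, fun i => c * w i, χ, fun i => mul_nonneg hc (hw i), fun a b => ?_⟩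
  simp only [hD, cutDist, Finset.mul_sum, mul_ite, mul_zero]

theorem IsCut.sum {X κ : Type} [Fintype κ] {D : κ → X → X → ℝ} (h : ∀ k, IsCut (D k)) :
    IsCut fun a b => ∑ k, D k a b := by
  choose ι inst w χ hw hD using h
  let := inst
  refine ⟨(k : κ) × ι k, inferInstance, fun p => w p.1 p.2, fun p => χ p.1 p.2,
    fun p => hw p.1 p.2, fun a b => ?_⟩
  simp only [hD, cutDist, Fintype.sum_sigma]

theorem IsCut.add {X : Type} {D E : X → X → ℝ} (h : IsCut D) (h' : IsCut E) :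
    IsCut fun a b => D a b + E a b := by
  obtain ⟨ι, _, w, χ, hw, hD⟩ := h
  obtain ⟨κ, _, v, ψ, hv, hE⟩ := h'
  refine ⟨ι ⊕ κ, inferInstance, Sum.elim w v, Sum.elim χ ψ, ?_, fun a b => ?_⟩
  · rintro (i | i) <;> simp [hw, hv]
  · simp only [hD, hE, cutDist, Fintype.sum_sum_type, Sum.elim_inl, Sum.elim_inr]
    rfl

/-- A single cut. -/
theorem IsCut.single {X : Type} (χ : X → Bool) {c : ℝ} (hc : 0 ≤ c) :
    IsCut fun a b => if χ a = χ b then 0 else c :=
  ⟨Unit, inferInstance, fun _ => c, fun _ => χ, fun _ => hc, fun a b => by simp [cutDist]⟩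

/-- Part B: the thresholded histogram metric of `s` points. -/
def HistStmt : Prop :=
  ∀ {X : Type} {D : X → X → ℝ}, IsCut D → ∀ (s : ℕ) {t : ℝ}, 0 < t →
    ∃ V : (Fin s → X) → (Fin s → X) → ℝ, IsCut V ∧
      (∀ a b (e : ℕ) (c : ℝ), 0 ≤ c → (∀ u v : Fin s, (u : ℕ) + e = v → D (a u) (b v) ≤ c) →
        V a b ≤ e + s * (2 * c / t)) ∧
      ∀ a b (R : ℝ), (∀ u v, t * R ≤ D (a u) (b v)) →
        s * (1 - (s : ℝ) ^ 2 * Real.exp (-R)) ≤ V a b

end Vale.Agent.P238U
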