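import Vale.Agent.P238.Cost
import Mathlib.Data.Nat.Dist

/-! Edit distance lemmas for the upper bound on its L1 distortion (P238): symmetry, splitting,
windows and blocks. -/

namespace Vale.Agent.P238U

open Vale.Agent.P238

/-- The window of length `m` starting at `a`. -/
def win (y : List Bool) (a m : ℕ) : List Bool := (y.drop a).take m

theorem editStep_symm {x y : List Bool} (h : EditStep x y) : EditStep y x := by
  rcases h with ⟨u, v, a, hx, hy⟩ | ⟨u, v, a, hy, hx⟩ | ⟨u, v, a, b, hx, hy⟩
  · exact Or.inr (Or.inl ⟨u, v, a, hx, hy⟩)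
  · exact Or.inl ⟨u, v, a, hy, hx⟩
  · exact Or.inr (Or.inr ⟨u, v, b, a, hy, hx⟩)

theorem reach_symm : ∀ {k : ℕ} {x y : List Bool}, Reach k x y → Reach k y x
  | 0, _, _, h => h.symm
  | _ + 1, _, _, ⟨_, hs, hr⟩ =>
    Reach.trans (reach_symm hr) (b := 1) ⟨_, editStep_symm hs, rfl⟩

theorem ED_comm (x y : List Bool) : ED x y = ED y x :=
  le_antisymm (ED_le (reach_symm (reach_ED y x))) (ED_le (reach_symm (reach_ED x y)))

theorem length_step {x y : List Bool} (h : EditStep x y) :
    x.length ≤ y.length + 1 ∧ y.length ≤ x.length + 1 := by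
  rcases h with ⟨u, v, a, rfl, rfl⟩ | ⟨u, v, a, rfl, rfl⟩ | ⟨u, v, a, b, rfl, rfl⟩ <;>
    simp only [List.length_append, List.length_cons] <;> omega

theorem length_reach : ∀ {k : ℕ} {x y : List Bool}, Reach k x y →
    x.length ≤ y.length + k ∧ y.length ≤ x.length + k
  | 0, _, _, h => by cases h; omega
  | k + 1, _, _, ⟨z, hs, hr⟩ => by
    have := length_step hs
    have := length_reach hr
    omega

theorem length_le_ED (x y : List Bool) :
    x.length ≤ y.length + ED x y ∧ y.length ≤ x.length + ED x y :=
  length_reach (reach_ED x y)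

theorem ED_eq_zero {x y : List Bool} (h : ED x y = 0) : x = y := by
  have := reach_ED x y
  rwa [h] at this

/-- One step on a concatenation acts on one of the two parts. -/
theorem step_split {x1 x2 z : List Bool} (h : EditStep (x1 ++ x2) z) :
    ∃ z1 z2, z = z1 ++ z2 ∧
      ((EditStep x1 z1 ∧ x2 = z2) ∨ (x1 = z1 ∧ EditStep x2 z2)) := by
  rcases h with ⟨u, v, a, hx, rfl⟩ | ⟨u, v, a, rfl, hx⟩ | ⟨u, v, a, b, hx, rfl⟩
  · rcases List.append_eq_append_iff.1 hx with ⟨p, rfl, hp⟩ | ⟨p, rfl, hp⟩
    · exact ⟨x1, p ++ v, by simp, Or.inr ⟨rfl, Or.inl ⟨p, v, a, hp, rfl⟩⟩⟩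
    · cases p with
      | nil =>
        simp only [List.nil_append] at hp
        exact ⟨u, v, rfl, Or.inr ⟨by simp, Or.inl ⟨[], v, a, by simp [← hp], rfl⟩⟩⟩
      | cons c p =>
        simp only [List.cons_append, List.cons.injEq] at hp
        obtain ⟨rfl, rfl⟩ := hp
        exact ⟨u ++ p, x2, by simp, Or.inl ⟨Or.inl ⟨u, p, a, rfl, rfl⟩, rfl⟩⟩
  · rcases List.append_eq_append_iff.1 hx with ⟨p, rfl, hp⟩ | ⟨p, rfl, hp⟩
    · exact ⟨x1, p ++ a :: v, by simp, Or.inr ⟨rfl, Or.inr (Or.inl ⟨p, v, a, rfl, hp⟩)⟩⟩
    · exact ⟨u ++ a :: p, x2, by simp [hp],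
        Or.inl ⟨Or.inr (Or.inl ⟨u, p, a, rfl, rfl⟩), rfl⟩⟩
  · rcases List.append_eq_append_iff.1 hx with ⟨p, rfl, hp⟩ | ⟨p, rfl, hp⟩
    · exact ⟨x1, p ++ b :: v, by simp, Or.inr ⟨rfl, Or.inr (Or.inr ⟨p, v, a, b, hp, rfl⟩)⟩⟩
    · cases p with
      | nil =>
        simp only [List.nil_append] at hp
        exact ⟨u, b :: v, rfl,
          Or.inr ⟨by simp, Or.inr (Or.inr ⟨[], v, a, b, by simp [← hp], rfl⟩)⟩⟩
      | cons c p =>
        simp only [List.cons_append, List.cons.injEq] at hp
        obtain ⟨rfl, rfl⟩ := hp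
        exact ⟨u ++ b :: p, x2, by simp, Or.inl ⟨Or.inr (Or.inr ⟨u, p, a, b, rfl, rfl⟩), rfl⟩⟩

theorem reach_split : ∀ {k : ℕ} {x1 x2 y : List Bool}, Reach k (x1 ++ x2) y →
    ∃ y1 y2 k1 k2, y = y1 ++ y2 ∧ k1 + k2 = k ∧ Reach k1 x1 y1 ∧ Reach k2 x2 y2
  | 0, x1, x2, _, h => ⟨x1, x2, 0, 0, h.symm, rfl, rfl, rfl⟩
  | k + 1, _, _, _, ⟨z, hs, hr⟩ => by
    obtain ⟨z1, z2, rfl, hcase⟩ := step_split hs
    obtain ⟨y1, y2, k1, k2, hy, hk, h1, h2⟩ := reach_split hr
    rcases hcase with ⟨he, rfl⟩ | ⟨rfl, he⟩
    · exact ⟨y1, y2, k1 + 1, k2, hy, by omega, ⟨z1, he, h1⟩, h2⟩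
    · exact ⟨y1, y2, k1, k2 + 1, hy, by omega, h1, z2, he, h2⟩

/-- A word near a concatenation splits accordingly. -/
theorem ED_split (x1 x2 y : List Bool) :
    ∃ y1 y2, y = y1 ++ y2 ∧ ED x1 y1 + ED x2 y2 ≤ ED (x1 ++ x2) y := by
  obtain ⟨y1, y2, k1, k2, hy, hk, h1, h2⟩ := reach_split (reach_ED (x1 ++ x2) y)
  exact ⟨y1, y2, hy, hk ▸ add_le_add (ED_le h1) (ED_le h2)⟩

theorem ED_append_right (x w : List Bool) : ED x (x ++ w) ≤ w.length := by
  have := ED_append x [] x w
  have := ED_le_length [] w
  simp only [List.append_nil, ED_self, List.length_nil] at *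
  omega

theorem ED_take_take (z : List Bool) {m m' : ℕ} (h : m ≤ m') :
    ED (z.take m) (z.take m') ≤ m' - m := by
  obtain ⟨d, rfl⟩ := Nat.le.dest h
  rw [List.take_add]
  refine (ED_append_right _ _).trans ?_
  simp

theorem ED_drop_drop (z : List Bool) {a a' : ℕ} (h : a ≤ a') :
    ED (z.drop a) (z.drop a') ≤ a' - a := by
  obtain ⟨d, rfl⟩ := Nat.le.dest h
  rw [← List.drop_drop]
  set w := z.drop a
  have h1 := ED_append (w.take d) (w.drop d) [] (w.drop d)
  have h2 := ED_le_length (w.take d) []
  rw [List.take_append_drop] at h1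
  simp only [List.nil_append, ED_self, List.length_nil, List.length_take] at h1 h2
  omega

/-- Moving the two ends of a window. -/
theorem ED_win_win (y : List Bool) (a m a' m' : ℕ) :
    ED (win y a m) (win y a' m') ≤ Nat.dist a a' + Nat.dist (a + m) (a' + m') := by
  wlog h : a ≤ a' generalizing a a' m m'
  · rw [ED_comm, Nat.dist_comm a, Nat.dist_comm (a + m)]
    exact this a' m' a m (by omega)
  simp only [Nat.dist]
  rcases le_or_gt (a + m) a' with hm | hm
  · have h1 := ED_le_length (win y a m) (win y a' m')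
    simp only [win, List.length_take, List.length_drop] at h1 ⊢
    omega
  · obtain ⟨d, rfl⟩ := Nat.le.dest h
    have h1 : win y (a + d) (m - d) = (win y a m).drop d := by
      rw [win, win, List.drop_take, List.drop_drop]
    have h2 : ED (win y a m) (win y (a + d) (m - d)) ≤ d := by
      have := ED_drop_drop (win y a m) (Nat.zero_le d)
      rw [h1]
      simpa using this
    have h3 : ED (win y (a + d) (m - d)) (win y (a + d) m') ≤ (m - d - m') + (m' - (m - d)) := by
      rcases le_total (m - d) m' with h | h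
      · have := ED_take_take (y.drop (a + d)) h
        simp only [win]
        omega
      · rw [ED_comm]
        have := ED_take_take (y.drop (a + d)) h
        simp only [win]
        omega
    have := ED_triangle (win y a m) (win y (a + d) (m - d)) (win y (a + d) m')
    omega

theorem ED_win_append (p w r : List Bool) (a m : ℕ) :
    ED (win (p ++ w ++ r) (p.length + a) m) (win w a m) ≤ a + m - w.length := by
  have h : win (p ++ w ++ r) (p.length + a) m = win (w ++ r) a m := by
    rw [win, win, List.append_assoc, ← List.drop_drop, List.drop_left]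
  rw [h, ED_comm]
  simp only [win]
  rcases le_total a w.length with ha | ha
  · rw [List.drop_append_of_le_length ha, List.take_append]
    refine (ED_append_right _ _).trans ?_
    simp only [List.length_take, List.length_drop]
    omega
  · have h0 := ED_le_length ((w.drop a).take m) (((w ++ r).drop a).take m)
    simp only [List.drop_eq_nil_of_le ha, List.take_nil, List.length_nil, List.length_take] at h0 ⊢
    omega

/-- Windows at the same position of two close words are close. -/
theorem ED_win_le (x y : List Bool) (a m : ℕ) (h : a + m ≤ x.length) :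
    ED (win x a m) (win y a m) ≤ 4 * ED x y := by
  have hx : x = x.take a ++ (win x a m ++ x.drop (a + m)) := by
    rw [win, ← List.drop_drop, List.take_append_drop, List.take_append_drop]
  obtain ⟨p, q, hy, h1⟩ := ED_split (x.take a) (win x a m ++ x.drop (a + m)) y
  obtain ⟨w, r, hq, h2⟩ := ED_split (win x a m) (x.drop (a + m)) q
  rw [← hx] at h1
  subst hq hy
  have l1 := length_le_ED (x.take a) p
  have l2 := length_le_ED (win x a m) w
  have h3 : win (p ++ (w ++ r)) p.length w.length = w := by
    rw [win, List.drop_left, List.take_left]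
  have h4 := ED_win_win (p ++ (w ++ r)) p.length w.length a m
  rw [h3] at h4
  have h5 := ED_triangle (win x a m) w (win (p ++ (w ++ r)) a m)
  have e1 : (win x a m).length = m := by simp [win]; omega
  have e2 : (x.take a).length = a := by simp; omega
  simp only [Nat.dist] at h4
  omega

/-- Two words with close windows are close. -/
theorem ED_le_win (x y : List Bool) (u u' m : ℕ) :
    ED x y ≤ ED (win x u m) (win y u' m) + (u + (x.length - (u + m))) +
      (u' + (y.length - (u' + m))) := by
  have key : ∀ (z : List Bool) (a : ℕ), ED z (win z a m) ≤ a + (z.length - (a + m)) := by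
    intro z a
    have h1 := ED_drop_drop z (Nat.zero_le a)
    simp only [List.drop_zero, Nat.sub_zero] at h1
    have h2 : ED (z.drop a) (win z a m) ≤ z.length - (a + m) := by
      rw [ED_comm, win]
      rcases le_total m (z.drop a).length with h | h
      · have := ED_take_take (z.drop a) h
        rw [List.take_length] at this
        simp only [List.length_drop] at this
        omega
      · rw [List.take_of_length_le h, ED_self]
        omega
    have := ED_triangle z (z.drop a) (win z a m)
    omega
  have h1 := key x u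
  have h2 := key y u'
  have := ED_triangle x (win x u m) y
  have := ED_triangle (win x u m) (win y u' m) y
  rw [ED_comm] at h2
  omega

/-- Appending a common suffix loses at most a factor two. -/
theorem ED_le_suffix (x y z : List Bool) : ED x y ≤ 2 * ED (x ++ z) (y ++ z) := by
  obtain ⟨y1, y2, hy, h⟩ := ED_split x z (y ++ z)
  have hd : ED y1 y ≤ Nat.dist y1.length y.length := by
    have e1 : win (y ++ z) 0 y1.length = y1 := by rw [hy]; simp [win]
    have e2 : win (y ++ z) 0 y.length = y := by simp [win]
    have := ED_win_win (y ++ z) 0 y1.length 0 y.length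
    rw [e1, e2] at this
    simpa [Nat.dist] using this
  have := length_le_ED x y1
  have := length_le_ED z y2
  have hlen := congrArg List.length hy
  simp only [List.length_append] at hlen
  have := ED_triangle x y1 y
  simp only [Nat.dist] at hd
  omega

/-- A word near a word of equal blocks splits into nearby blocks. -/
theorem exists_blocks (L : ℕ) : ∀ (b : ℕ) (x y : List Bool), x.length = (b + 1) * L →
    ∃ ys : ℕ → List Bool, ∃ o : ℕ → ℕ,
      (∀ i ≤ b, win y (o i) (ys i).length = ys i ∧
        Nat.dist (o i) (i * L) ≤ ED x y ∧ ∀ a m, ED (win y (o i + a) m) (win (ys i) a m) ≤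
          a + m - (ys i).length) ∧
      ∑ i ∈ Finset.range (b + 1), ED (win x (i * L) L) (ys i) ≤ ED x y
  | 0, x, y, hx => by
    refine ⟨fun _ => y, fun _ => 0, fun i hi => ⟨by simp [win], ?_, fun a m => ?_⟩, ?_⟩
    · obtain rfl : i = 0 := by omega
      simp [Nat.dist]
    · simp [ED_self]
    · simp only [zero_add, one_mul] at hx
      simp [win, ← hx]
  | b + 1, x, y, hx => by
    obtain ⟨y1, y2, rfl, h⟩ := ED_split (x.take L) (x.drop L) y
    rw [List.take_append_drop] at h
    have hx2 : (x.drop L).length = (b + 1) * L := by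
      rw [List.length_drop, hx, Nat.succ_mul (b + 1) L]; omega
    obtain ⟨ys, o, hpt, hsum⟩ := exists_blocks L b (x.drop L) y2 hx2
    refine ⟨fun i => if i = 0 then y1 else ys (i - 1),
      fun i => if i = 0 then 0 else y1.length + o (i - 1), fun i hi => ?_, ?_⟩
    · rcases i with _ | i
      · refine ⟨by simp [win], by simp [Nat.dist], fun a m => ?_⟩
        simpa using ED_win_append [] y1 y2 a m
      · obtain ⟨e1, e2, e3⟩ := hpt i (by omega)
        have e4 : ∀ a m, win (y1 ++ y2) (y1.length + a) m = win y2 a m := fun a m => by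
          rw [win, win, ← List.drop_drop, List.drop_left]
        simp only [Nat.succ_ne_zero, if_false, Nat.add_sub_cancel]
        refine ⟨by rw [e4, e1], ?_, fun a m => by rw [add_assoc, e4]; exact e3 a m⟩
        have := length_le_ED (x.take L) y1
        have hL : L ≤ x.length := by rw [hx, Nat.succ_mul (b + 1) L]; omega
        simp only [List.length_take, Nat.min_eq_left hL] at this
        simp only [Nat.dist, Nat.succ_mul] at e2 ⊢
        omega
    · rw [Finset.sum_range_succ']
      simp only [Nat.succ_ne_zero, if_false, Nat.add_sub_cancel, if_true, zero_mul]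
      have e5 : ∀ i, win x ((i + 1) * L) L = win (x.drop L) (i * L) L := fun i => by
        simp only [win, List.drop_drop, Nat.succ_mul, add_comm]
      simp only [e5]
      have e6 : win x 0 L = x.take L := by simp [win]
      rw [e6]
      omega

end Vale.Agent.P238U
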