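import Vale.Agent.P238U.Step
import Vale.Agent.P238.Assembly
import Mathlib.Analysis.Normed.Lp.lpSpace
import Mathlib.Analysis.SpecialFunctions.Log.Basic
import Mathlib.Analysis.Complex.ExponentialBounds

/-! The upper bound exp(C √(log n log log n)) on the L1 distortion of edit distance (P238):
iteration of the recursion step, choice of the block sizes, and the map into l1. -/

namespace Vale.Agent.P238U

open Vale.Agent.P238 Finset

/-- The upper bound. -/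
def UpperStmt : Prop :=
  ∃ C : ℝ, 0 < C ∧ ∃ n0 : ℕ, ∀ n ≥ n0, ∃ (f : (Fin n → Bool) → lp (fun _ : ℕ => ℝ) 1) (A B : ℝ),
    (∀ x y, ‖f x - f y‖ ≤ A * wordED x y ∧ (wordED x y : ℝ) ≤ B * ‖f x - f y‖) ∧
    A * B ≤ Real.exp (C * √(Real.log n * Real.log (Real.log n)))

theorem Good.mono {L : ℕ} {α β : ℝ} (h : Good L α) (hab : α ≤ β) : Good L β := by
  obtain ⟨D, hD, hG⟩ := h
  exact ⟨D, hD, fun x y hx hy => ⟨(hG x y hx hy).1,
    (hG x y hx hy).2.trans (mul_le_mul_of_nonneg_right hab (Nat.cast_nonneg _))⟩⟩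

/-- Words of one letter. -/
theorem good_one : Good 1 1 := by
  let g : List Bool → Bool := fun z => z.getD 0 false
  refine ⟨fun x y => if g x = g y then 0 else 1, IsCut.discrete g zero_le_one, fun x y hx hy => ?_⟩
  obtain ⟨a, rfl⟩ := List.length_eq_one_iff.1 hx
  obtain ⟨b, rfl⟩ := List.length_eq_one_iff.1 hy
  simp only [g, List.getD_cons_zero, one_mul]
  by_cases hab : a = b
  · subst hab
    simp [ED_self]
  · rw [if_neg hab]
    have h1 : ED [a] [b] ≤ 1 := ED_le ⟨[b], Or.inr (Or.inr ⟨[], [], a, b, rfl, rfl⟩), rfl⟩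
    have h2 : 1 ≤ ED [a] [b] := by
      by_contra h0
      exact hab (by simpa using ED_eq_zero (x := [a]) (y := [b]) (by omega))
    exact ⟨by exact_mod_cast h1, by exact_mod_cast h2⟩

/-- `i` levels of blocks of `2 ^ r`. -/
theorem good_pow (hH : HistStmt) (r M : ℕ) : ∀ i ≤ M,
    Good (2 ^ (r * i)) ((2000 * ((r * M + 1 : ℕ) : ℝ) ^ 2) ^ i * 2 ^ r)
  | 0, _ => by
    simpa using good_one.mono (one_le_pow₀ (one_le_two : (1 : ℝ) ≤ 2))
  | i + 1, hi => by
    set Jm : ℝ := ((r * M + 1 : ℕ) : ℝ) with hJm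
    set α := (2000 * Jm ^ 2) ^ i * (2 : ℝ) ^ r with hα
    have hJm1 : 1 ≤ Jm := by rw [hJm]; exact_mod_cast Nat.le_add_left 1 (r * M)
    have hJ2 : 1 ≤ Jm ^ 2 := one_le_pow₀ hJm1
    have hα0 : 0 ≤ α := by positivity
    have hBα : (2 : ℝ) ^ r ≤ α :=
      le_mul_of_one_le_left (by positivity) (one_le_pow₀ (by linarith))
    have h := step hH hα0 Nat.one_le_two_pow (good_pow hH r M i (by omega)) (2 ^ r - 1)
    have e1 : 2 ^ r - 1 + 1 = 2 ^ r := Nat.sub_add_cancel Nat.one_le_two_pow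
    have e2 : ((2 ^ r - 1 : ℕ) : ℝ) + 1 = 2 ^ r := by exact_mod_cast e1
    rw [e1, ← pow_add, Nat.log_pow (by norm_num : 1 < 2), e2,
      show r + r * i = r * (i + 1) by ring] at h
    refine h.mono ?_
    have hJi : ((r * i + 1 : ℕ) : ℝ) ≤ Jm := by
      rw [hJm]
      exact_mod_cast Nat.add_le_add_right (Nat.mul_le_mul_left r (show i ≤ M by omega)) 1
    have h0 : (1 : ℝ) ≤ ((r * i + 1 : ℕ) : ℝ) := by exact_mod_cast Nat.le_add_left 1 (r * i)
    have hJi2 : ((r * i + 1 : ℕ) : ℝ) ^ 2 ≤ Jm ^ 2 := pow_le_pow_left₀ (by linarith) hJi 2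
    have p1 : (20 : ℝ) * (r * i + 1 : ℕ) * 2 ^ r ≤ 20 * Jm ^ 2 * α := by
      have : ((r * i + 1 : ℕ) : ℝ) ≤ Jm ^ 2 := by nlinarith
      gcongr
    have p2 : (800 : ℝ) * ((r * i + 1 : ℕ) : ℝ) ^ 2 * α ≤ 800 * Jm ^ 2 * α := by gcongr
    have p3 : (5 : ℝ) * 2 ^ r ≤ 5 * Jm ^ 2 * α := by
      have : (5 : ℝ) ≤ 5 * Jm ^ 2 := by linarith
      gcongr
    have p4 : (2000 * Jm ^ 2) ^ (i + 1) * (2 : ℝ) ^ r = 2000 * Jm ^ 2 * α := by rw [hα]; ring
    rw [p4]
    nlinarith [mul_nonneg (sq_nonneg Jm) hα0]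

/-- A finite family of weights as a point of `l1`. -/
noncomputable def vec (N : ℕ) (a : Fin N → ℝ) : lp (fun _ : ℕ => ℝ) 1 :=
  ∑ k ∈ range N, lp.single 1 k (if h : k < N then a ⟨k, h⟩ else 0)

theorem norm_vec_sub (N : ℕ) (a b : Fin N → ℝ) : ‖vec N a - vec N b‖ = ∑ i, |a i - b i| := by
  have h0 : (0 : ℝ) < (1 : ENNReal).toReal := by norm_num
  have e : vec N a - vec N b =
      ∑ k ∈ range N, lp.single 1 k ((fun k => if h : k < N then a ⟨k, h⟩ - b ⟨k, h⟩ else 0) k) := by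
    rw [vec, vec, ← sum_sub_distrib]
    refine sum_congr rfl fun k hk => ?_
    ext j
    simp only [lp.coeFn_sub, Pi.sub_apply, lp.single_apply, Pi.single_apply]
    split_ifs <;> simp_all
  have h := lp.norm_sum_single (E := fun _ : ℕ => ℝ) h0
    (fun k => if h : k < N then a ⟨k, h⟩ - b ⟨k, h⟩ else 0) (range N)
  rw [← e] at h
  simp only [ENNReal.toReal_one, Real.rpow_one] at h
  rw [h, ← Fin.sum_univ_eq_sum_range]
  refine sum_congr rfl fun i _ => ?_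
  simp [Real.norm_eq_abs]

/-- A cut metric embeds isometrically in `l1`. -/
theorem IsCut.to_l1 {X : Type} {D : X → X → ℝ} (h : IsCut D) :
    ∃ f : X → lp (fun _ : ℕ => ℝ) 1, ∀ a b, ‖f a - f b‖ = D a b := by
  obtain ⟨ι, _, w, χ, hw, hD⟩ := h
  refine ⟨fun z => vec (Fintype.card ι) fun i =>
    if χ ((Fintype.equivFin ι).symm i) z then w ((Fintype.equivFin ι).symm i) else 0, fun a b => ?_⟩
  rw [hD, norm_vec_sub, cutDist]
  refine Fintype.sum_equiv (Fintype.equivFin ι).symm _ _ fun i => ?_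
  have := hw ((Fintype.equivFin ι).symm i)
  cases χ ((Fintype.equivFin ι).symm i) a <;> cases χ ((Fintype.equivFin ι).symm i) b <;>
    simp [this]

/-- Shorter words are padded. -/
theorem embed {n N : ℕ} (hn : n ≤ N) {α : ℝ} (hα : 0 ≤ α) (h : Good N α) :
    ∃ (f : (Fin n → Bool) → lp (fun _ : ℕ => ℝ) 1) (A B : ℝ),
      (∀ x y, ‖f x - f y‖ ≤ A * wordED x y ∧ (wordED x y : ℝ) ≤ B * ‖f x - f y‖) ∧
      A * B ≤ 2 * α := by
  obtain ⟨D, hD, hG⟩ := h
  set z := List.replicate (N - n) false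
  let pad : (Fin n → Bool) → List Bool := fun x => List.ofFn x ++ z
  obtain ⟨f, hf⟩ := ((hD.comap pad).smul (zero_le_two : (0 : ℝ) ≤ 2)).to_l1
  refine ⟨f, 2 * α, 1, fun x y => ?_, le_of_eq (mul_one _)⟩
  have hlen : ∀ x, (pad x).length = N := fun x => by simp [pad, z]; omega
  obtain ⟨hl, hu⟩ := hG _ _ (hlen x) (hlen y)
  have h1 : ED (pad x) (pad y) ≤ wordED x y :=
    (ED_append _ _ _ _).trans (le_of_eq (by rw [ED_self, Nat.add_zero]; rfl))
  have h2 : wordED x y ≤ 2 * ED (pad x) (pad y) := ED_le_suffix _ _ z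
  have h1' : (ED (pad x) (pad y) : ℝ) ≤ wordED x y := by exact_mod_cast h1
  have h2' : (wordED x y : ℝ) ≤ 2 * ED (pad x) (pad y) := by exact_mod_cast h2
  rw [hf]
  constructor
  · nlinarith
  · linarith

/-- The parameters. -/
theorem params (ℓ m : ℕ) (hm1 : 1 ≤ m) (hml : m ≤ ℓ) (hl : ℓ < 2 ^ m) :
    ∃ r M : ℕ, ℓ ≤ r * M ∧ r ≤ Nat.sqrt (ℓ * m) + 1 ∧
      2 * ((2000 * (r * M + 1) ^ 2) ^ M * 2 ^ r) ≤ 2 ^ (32 * r) := by
  set r := Nat.sqrt (ℓ * m) + 1 with hr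
  have hrr : ℓ * m < r * r := Nat.lt_succ_sqrt (ℓ * m)
  have hmr : m ≤ r := by
    have : m * m ≤ ℓ * m := Nat.mul_le_mul_right m hml
    by_contra h
    have := Nat.mul_le_mul (show r ≤ m by omega) (show r ≤ m by omega)
    omega
  have hrl : r ≤ ℓ + 1 := by
    have h1 := Nat.sqrt_le_sqrt (Nat.mul_le_mul_left ℓ hml)
    rw [Nat.sqrt_eq] at h1
    omega
  have hq : ℓ / r * m ≤ r := by
    have h1 : ℓ / r * r ≤ ℓ := Nat.div_mul_le_self _ _
    by_contra h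
    have h2 : (r + 1) * r ≤ ℓ / r * m * r := Nat.mul_le_mul_right r (by omega)
    have h3 : ℓ / r * m * r ≤ ℓ * m := by
      rw [Nat.mul_right_comm]; exact Nat.mul_le_mul_right m h1
    rw [Nat.add_mul] at h2
    omega
  refine ⟨r, ℓ / r + 1, ?_, le_rfl, ?_⟩
  · rw [Nat.mul_add, mul_one]
    have := Nat.div_add_mod ℓ r
    have := Nat.mod_lt ℓ (show r > 0 by omega)
    omega
  · set M := ℓ / r + 1 with hM
    have hMm : M * m ≤ 2 * r := by rw [hM, Nat.add_mul, one_mul]; omega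
    have hJ : r * M + 1 ≤ 2 ^ (m + 1) := by
      have : r * (ℓ / r) ≤ ℓ := Nat.mul_div_le _ _
      rw [hM, Nat.mul_add, mul_one, pow_succ]
      omega
    calc 2 * ((2000 * (r * M + 1) ^ 2) ^ M * 2 ^ r)
        ≤ 2 ^ 1 * ((2 ^ 11 * (2 ^ (m + 1)) ^ 2) ^ M * 2 ^ r) := by gcongr <;> norm_num
      _ = 2 ^ (1 + ((11 + (m + 1) * 2) * M + r)) := by
          rw [← pow_mul, ← pow_add, ← pow_mul, ← pow_add, ← pow_add]
      _ ≤ 2 ^ (32 * r) := by
          refine Nat.pow_le_pow_right (by norm_num) ?_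
          have h15 : (11 + (m + 1) * 2) * M ≤ 15 * (M * m) := by
            calc (11 + (m + 1) * 2) * M ≤ (15 * m) * M := Nat.mul_le_mul_right M (by omega)
              _ = _ := by ring
          omega

/-- The upper bound, from the histogram lemma. -/
theorem upper (hH : HistStmt) : UpperStmt := by
  refine ⟨1024, by norm_num, 16, fun n hn => ?_⟩
  set ℓ := Nat.log 2 n + 1 with hℓ
  set m := Nat.log 2 ℓ + 1 with hm
  have hnl : n < 2 ^ ℓ := Nat.lt_pow_succ_log_self (by norm_num) n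
  have hlm : ℓ < 2 ^ m := Nat.lt_pow_succ_log_self (by norm_num) ℓ
  have hml : m ≤ ℓ := by
    have h1 : 2 ^ Nat.log 2 ℓ ≤ ℓ := Nat.pow_log_le_self 2 (by omega)
    have h2 : Nat.log 2 ℓ < 2 ^ Nat.log 2 ℓ := Nat.lt_two_pow_self
    omega
  obtain ⟨r, M, hrM, hr, hbd⟩ := params ℓ m (by omega) hml hlm
  obtain ⟨f, A, B, hf, hAB⟩ := embed (hnl.le.trans (Nat.pow_le_pow_right (by norm_num) hrM))
    (by positivity) (good_pow hH r M M le_rfl)
  refine ⟨f, A, B, hf, hAB.trans ?_⟩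
  have hbd' : 2 * ((2000 * ((r * M + 1 : ℕ) : ℝ) ^ 2) ^ M * 2 ^ r) ≤ (2 : ℝ) ^ (32 * r) := by
    exact_mod_cast hbd
  refine hbd'.trans ?_
  set Ln := Real.log n
  have hlog2 := Real.log_two_gt_d9
  have hlog2' := Real.log_two_lt_d9
  have hnR : (16 : ℝ) ≤ n := by exact_mod_cast hn
  have hLn : 2.77 ≤ Ln := by
    have h := Real.log_le_log (by norm_num) hnR
    rw [show (16 : ℝ) = 2 ^ 4 by norm_num, Real.log_pow] at h
    push_cast at h
    linarith
  have hLL : 1 ≤ Real.log Ln := by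
    rw [Real.le_log_iff_exp_le (by linarith)]
    linarith [Real.exp_one_lt_d9]
  have hlR : (ℓ : ℝ) ≤ 3 * Ln := by
    have h : ((2 : ℝ) ^ Nat.log 2 n) ≤ n := by exact_mod_cast Nat.pow_log_le_self 2 (by omega)
    have h' := Real.log_le_log (by positivity) h
    rw [Real.log_pow] at h'
    rw [hℓ]
    push_cast
    nlinarith [Nat.cast_nonneg (α := ℝ) (Nat.log 2 n)]
  have hmR : (m : ℝ) ≤ 5 * Real.log Ln := by
    have h : ((2 : ℝ) ^ Nat.log 2 ℓ) ≤ ℓ := by exact_mod_cast Nat.pow_log_le_self 2 (by omega)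
    have h' := Real.log_le_log (by positivity) (h.trans hlR)
    rw [Real.log_pow, Real.log_mul (by norm_num) (by linarith)] at h'
    have h3 : Real.log 3 ≤ 1.39 := by
      have := Real.log_le_log (by norm_num) (show (3 : ℝ) ≤ 2 ^ 2 by norm_num)
      rw [Real.log_pow] at this
      push_cast at this
      linarith
    rw [hm]
    push_cast
    nlinarith [Nat.cast_nonneg (α := ℝ) (Nat.log 2 ℓ)]
  have hP : (0 : ℝ) ≤ Ln * Real.log Ln := by positivity
  have hsq : (r : ℝ) ≤ 8 * √(Ln * Real.log Ln) := by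
    have h1 : (Nat.sqrt (ℓ * m) : ℝ) ≤ √((ℓ * m : ℕ) : ℝ) := Real.nat_sqrt_le_real_sqrt
    have h2 : √((ℓ * m : ℕ) : ℝ) ≤ 4 * √(Ln * Real.log Ln) := by
      rw [show (4 : ℝ) = √16 by rw [show (16 : ℝ) = 4 ^ 2 by norm_num, Real.sqrt_sq (by norm_num)],
        ← Real.sqrt_mul (by norm_num)]
      refine Real.sqrt_le_sqrt ?_
      push_cast
      calc (ℓ : ℝ) * m ≤ (3 * Ln) * (5 * Real.log Ln) := by
            exact mul_le_mul hlR hmR (Nat.cast_nonneg _) (by linarith)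
        _ ≤ _ := by nlinarith
    have h3 : 1 ≤ √(Ln * Real.log Ln) := by
      rw [Real.one_le_sqrt]; nlinarith
    have h4 : (r : ℝ) ≤ Nat.sqrt (ℓ * m) + 1 := by exact_mod_cast hr
    linarith
  rw [← Real.exp_log (by positivity : (0 : ℝ) < 2 ^ (32 * r)), Real.log_pow]
  refine Real.exp_le_exp.2 ?_
  push_cast
  nlinarith [Nat.cast_nonneg (α := ℝ) r, Real.sqrt_nonneg (Ln * Real.log Ln)]

end Vale.Agent.P238U
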