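import Vale.Agent.P238U.Cut
import Mathlib

/-! Part B of the upper bound on the L1 distortion of edit distance (P238): sampling cuts into
cells, and the histogram of cells as a cut pseudometric. -/

namespace Vale.Agent.P238U

open Finset

section Histogram

variable {C : Type} [Fintype C] [DecidableEq C] {s : ℕ}

/-- The number of indices sent to a given cell. -/
def cnt (g : Fin s → C) (c : C) : ℕ := #{u | g u = c}

theorem cnt_le (g : Fin s → C) (c : C) : cnt g c ≤ s :=
  le_trans (card_le_univ _) (le_of_eq (Fintype.card_fin s))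

theorem cnt_eq_sum (g : Fin s → C) (c : C) :
    (cnt g c : ℝ) = ∑ u, if g u = c then (1 : ℝ) else 0 := by
  rw [cnt, sum_boole]

theorem sum_cnt (g : Fin s → C) : ∑ c, (cnt g c : ℝ) = s := by
  simp only [cnt_eq_sum]
  rw [sum_comm]
  simp

/-- Half the L1 distance of two histograms, written with cuts. -/
noncomputable def histDist (g h : Fin s → C) : ℝ :=
  ∑ p : C × Fin s,
    if decide ((p.2 : ℕ) < cnt g p.1) = decide ((p.2 : ℕ) < cnt h p.1) then 0 else (1 / 2 : ℝ)

theorem histDist_eq (g h : Fin s → C) :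
    histDist g h = (1 / 2) * ∑ c, |(cnt g c : ℝ) - cnt h c| := by
  have key : ∀ N M : ℕ, N ≤ M → M ≤ s →
      (∑ j : Fin s, if decide ((j : ℕ) < N) = decide ((j : ℕ) < M) then 0 else (1 / 2 : ℝ))
        = (1 / 2) * ((M : ℝ) - N) := by
    intro N M hNM hM
    have : ∀ j : Fin s, (if decide ((j : ℕ) < N) = decide ((j : ℕ) < M) then 0 else (1 / 2 : ℝ))
        = (1 / 2) * ((if (j : ℕ) < M then 1 else 0) - (if (j : ℕ) < N then 1 else 0)) := by
      intro j
      by_cases h1 : (j : ℕ) < N
      · simp [h1, lt_of_lt_of_le h1 hNM]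
      · by_cases h2 : (j : ℕ) < M <;> simp [h1, h2]
    have cf : ∀ K : ℕ, K ≤ s → (∑ j : Fin s, if (j : ℕ) < K then (1 : ℝ) else 0) = K := by
      intro K hK
      rw [sum_boole]
      rcases eq_or_lt_of_le hK with rfl | hK
      · simp
      · have : ({j : Fin s | (j : ℕ) < K} : Finset (Fin s)) = Finset.Iio ⟨K, hK⟩ := by
          ext j; simp [Fin.lt_def]
        rw [this, Fin.card_Iio]
    rw [sum_congr rfl fun j _ => this j, ← mul_sum, sum_sub_distrib, cf M hM, cf N (hNM.trans hM)]
  rw [histDist, Fintype.sum_prod_type, mul_sum]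
  refine sum_congr rfl fun c _ => ?_
  rcases le_total (cnt g c) (cnt h c) with hle | hle
  · rw [key _ _ hle (cnt_le h c), abs_sub_comm, abs_of_nonneg]
    simpa using hle
  · rw [abs_of_nonneg (by simpa using hle), ← key _ _ hle (cnt_le g c)]
    exact sum_congr rfl fun j _ => by simp only [eq_comm]

theorem isCut_histDist {X : Type} (cell : X → C) :
    IsCut fun a b : Fin s → X => histDist (fun u => cell (a u)) (fun u => cell (b u)) := by
  simp only [histDist]
  exact IsCut.sum fun p => IsCut.single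
    (fun a : Fin s → X => decide ((p.2 : ℕ) < cnt (fun u => cell (a u)) p.1)) (by norm_num)

/-- Matched indices with equal cells cancel. -/
theorem histDist_le (g h : Fin s → C) (e : ℕ) :
    histDist g h ≤ e + ∑ u : Fin s, ∑ v : Fin s,
      if (u : ℕ) + e = v ∧ g u ≠ h v then (1 : ℝ) else 0 := by
  let P : Finset (Fin s) := {u | (u : ℕ) + e < s}
  let Q : Finset (Fin s) := {v | e ≤ (v : ℕ)}
  let δ : C → C → ℝ := fun x c => if x = c then 1 else 0
  let sh : (u : Fin s) → u ∈ P → Fin s := fun u hu => ⟨(u : ℕ) + e, (mem_filter.mp hu).2⟩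
  let F : Fin s → ℝ := fun u => ∑ v : Fin s, if (u : ℕ) + e = v ∧ g u ≠ h v then (1 : ℝ) else 0
  have hsum : ∀ c, ∑ v ∈ Q, δ (h v) c = ∑ u ∈ P.attach, δ (h (sh u.1 u.2)) c := by
    intro c
    refine (sum_bij (fun u _ => sh u.1 u.2) (fun u _ => ?_) (fun u _ v _ huv => ?_)
      (fun v hv => ?_) (fun _ _ => rfl)).symm
    · simp [Q, sh]
    · simp only [sh, Fin.mk.injEq, add_left_inj] at huv
      exact Subtype.ext (Fin.ext huv)
    · have hv' : e ≤ (v : ℕ) := (mem_filter.mp hv).2
      exact ⟨⟨⟨(v : ℕ) - e, by omega⟩, by simp [P]; omega⟩, mem_attach _ _,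
        Fin.ext (show (v : ℕ) - e + e = v by omega)⟩
  have hpos : ∀ x c, 0 ≤ δ x c := fun x c => by simp only [δ]; split_ifs <;> norm_num
  have hδ : ∀ x, ∑ c, δ x c = 1 := fun x => by simp [δ]
  have hb : ∀ c, |(cnt g c : ℝ) - cnt h c| ≤
      ∑ u ∈ P.attach, |δ (g u.1) c - δ (h (sh u.1 u.2)) c| + (∑ u ∈ Pᶜ, δ (g u) c
        + ∑ v ∈ Qᶜ, δ (h v) c) := by
    intro c
    have hg : (cnt g c : ℝ) = ∑ u ∈ P.attach, δ (g u.1) c + ∑ u ∈ Pᶜ, δ (g u) c := by
      rw [sum_attach P (fun u => δ (g u) c), sum_add_sum_compl, cnt_eq_sum]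
    have hh : (cnt h c : ℝ) = ∑ u ∈ P.attach, δ (h (sh u.1 u.2)) c + ∑ v ∈ Qᶜ, δ (h v) c := by
      rw [← hsum c, sum_add_sum_compl, cnt_eq_sum]
    rw [hg, hh]
    have hA : (0 : ℝ) ≤ ∑ u ∈ Pᶜ, δ (g u) c := sum_nonneg fun _ _ => hpos _ _
    have hB : (0 : ℝ) ≤ ∑ v ∈ Qᶜ, δ (h v) c := sum_nonneg fun _ _ => hpos _ _
    have hC := abs_le.mp (abs_sum_le_sum_abs
      (fun u : {u // u ∈ P} => δ (g u.1) c - δ (h (sh u.1 u.2)) c) P.attach)
    rw [sum_sub_distrib] at hC
    rw [abs_le]; constructor <;> linarith [hC.1, hC.2]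
  have hmatch : ∀ u : {u // u ∈ P}, ∑ c, |δ (g u.1) c - δ (h (sh u.1 u.2)) c| ≤ 2 * F u.1 := by
    intro u
    by_cases heq : g u.1 = h (sh u.1 u.2)
    · simp only [heq, sub_self, abs_zero, sum_const_zero]
      exact mul_nonneg zero_le_two (sum_nonneg fun _ _ => by split_ifs <;> norm_num)
    · have h1 : (1 : ℝ) ≤ F u.1 := by
        refine le_trans ?_ (single_le_sum (f := fun v : Fin s =>
          if (u.1 : ℕ) + e = v ∧ g u.1 ≠ h v then (1 : ℝ) else 0)
          (fun _ _ => by split_ifs <;> norm_num) (mem_univ (sh u.1 u.2)))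
        rw [if_pos ⟨rfl, heq⟩]
      calc ∑ c, |δ (g u.1) c - δ (h (sh u.1 u.2)) c|
          ≤ ∑ c, (δ (g u.1) c + δ (h (sh u.1 u.2)) c) := sum_le_sum fun c _ => by
            rw [abs_le]; constructor <;>
              linarith [hpos (g u.1) c, hpos (h (sh u.1 u.2)) c]
        _ = 2 := by rw [sum_add_distrib, hδ, hδ]; norm_num
        _ ≤ 2 * F u.1 := by linarith
  have hP : ((Pᶜ).card : ℝ) ≤ e := by
    have : (Pᶜ).card ≤ (Finset.Ico (s - e) s).card :=
      card_le_card_of_injOn Fin.val (fun u hu => by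
        simp [P] at hu
        simp only [coe_Ico, Set.mem_Ico]
        have := u.isLt; omega) (Fin.val_injective.injOn)
    rw [Nat.card_Ico] at this
    exact_mod_cast le_trans this (by omega)
  have hQ : ((Qᶜ).card : ℝ) ≤ e := by
    have : (Qᶜ).card ≤ (Finset.range e).card :=
      card_le_card_of_injOn Fin.val (fun u hu => by
        simp [Q] at hu
        simpa using hu) (Fin.val_injective.injOn)
    rw [card_range] at this
    exact_mod_cast this
  have htot : ∑ c, |(cnt g c : ℝ) - cnt h c| ≤ 2 * ∑ u, F u + (e + e) := by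
    refine le_trans (sum_le_sum fun c _ => hb c) ?_
    rw [sum_add_distrib, sum_add_distrib, sum_comm, sum_comm (s := univ) (t := Pᶜ),
      sum_comm (s := univ) (t := Qᶜ)]
    simp only [hδ, sum_const, nsmul_eq_mul, mul_one]
    refine add_le_add (le_trans (sum_le_sum fun u _ => hmatch u) ?_) (add_le_add hP hQ)
    rw [← mul_sum, sum_attach P F]
    exact mul_le_mul_of_nonneg_left (sum_le_univ_sum_of_nonneg fun u =>
      sum_nonneg fun _ _ => by split_ifs <;> norm_num) zero_le_two
  rw [histDist_eq]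
  change _ ≤ (e : ℝ) + ∑ u, F u
  linarith

theorem le_histDist (g h : Fin s → C) :
    (s : ℝ) * (1 - ∑ u : Fin s, ∑ v : Fin s, if g u = h v then (1 : ℝ) else 0) ≤ histDist g h := by
  by_cases hex : ∃ u v, g u = h v
  · obtain ⟨u, v, huv⟩ := hex
    have h1 : (1 : ℝ) ≤ ∑ u : Fin s, ∑ v : Fin s, if g u = h v then (1 : ℝ) else 0 := by
      refine le_trans ?_ (single_le_sum (f := fun u => ∑ v : Fin s, if g u = h v then (1 : ℝ) else 0)
        (fun _ _ => sum_nonneg fun _ _ => by split_ifs <;> norm_num) (mem_univ u))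
      refine le_trans ?_ (single_le_sum (f := fun v : Fin s => if g u = h v then (1 : ℝ) else 0)
        (fun _ _ => by split_ifs <;> norm_num) (mem_univ v))
      rw [if_pos huv]
    exact le_trans (mul_nonpos_of_nonneg_of_nonpos (Nat.cast_nonneg _) (by linarith))
      (sum_nonneg fun _ _ => by split_ifs <;> norm_num)
  · push Not at hex
    have hd : ∀ c, |(cnt g c : ℝ) - cnt h c| = cnt g c + cnt h c := by
      intro c
      by_cases hc : cnt g c = 0
      · simp [hc]
      · obtain ⟨u, hu⟩ := card_ne_zero.mp hc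
        have : cnt h c = 0 := card_eq_zero.mpr <| filter_eq_empty_iff.mpr fun v _ hv =>
          hex u v ((mem_filter.mp hu).2.trans hv.symm)
        simp [this]
    have hz : ∀ u v, (if g u = h v then (1 : ℝ) else 0) = 0 := fun u v => if_neg (hex u v)
    rw [histDist_eq, sum_congr rfl fun c _ => hd c, sum_add_distrib, sum_cnt, sum_cnt]
    simp only [hz, sum_const_zero]
    linarith

end Histogram

theorem hist : HistStmt := by
  intro X D hD s t ht
  obtain ⟨ι₀, _, w₀, χ₀, hw₀, hD₀⟩ := hD
  -- pad with a constant cut of weight t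
  let w : Option ι₀ → ℝ := fun o => o.elim t w₀
  let χ : Option ι₀ → X → Bool := fun o x => o.elim false (fun i => χ₀ i x)
  have hw : ∀ i, 0 ≤ w i := by rintro (_ | i) <;> simp [w, ht.le, hw₀]
  have hDd : ∀ a b, D a b = ∑ i, if χ i a = χ i b then 0 else w i := fun a b => by
    rw [Fintype.sum_option, hD₀, cutDist]; simp [w, χ]; rfl
  set W : ℝ := ∑ i, w i with hW
  have hWt : t ≤ W := single_le_sum (f := w) (fun i _ => hw i) (mem_univ none)
  have hWpos : 0 < W := ht.trans_le hWt
  set T : ℕ := ⌈W / t⌉₊ with hT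
  let p : (Fin T → Option ι₀) → ℝ := fun f => ∏ j, w (f j) / W
  have hp : ∀ f, 0 ≤ p f := fun f => prod_nonneg fun j _ => div_nonneg (hw _) hWpos.le
  have hp1 : ∑ f, p f = 1 := by
    rw [← Fintype.prod_sum fun (_ : Fin T) i => w i / W]
    rw [← sum_div, ← hW, div_self hWpos.ne', prod_const_one]
  let cell : (Fin T → Option ι₀) → X → (Fin T → Bool) := fun f x j => χ (f j) x
  have hd0 : ∀ a b, 0 ≤ D a b := fun a b => by
    rw [hDd]; exact sum_nonneg fun i _ => by split_ifs <;> simp [hw i]
  have hdW : ∀ a b, D a b ≤ W := fun a b => by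
    rw [hDd]; exact sum_le_sum fun i _ => by split_ifs <;> simp [hw i]
  have heq : ∀ a b, (∑ f, if cell f a = cell f b then p f else 0) = (1 - D a b / W) ^ T := by
    intro a b
    have h1 : (1 - D a b / W) = ∑ i, if χ i a = χ i b then w i / W else 0 := by
      rw [hDd, sum_div, ← div_self hWpos.ne', hW, sum_div, ← sum_sub_distrib]
      exact sum_congr rfl fun i _ => by split_ifs <;> ring
    rw [h1, ← Fin.prod_const T, Fintype.prod_sum]
    refine sum_congr rfl fun f _ => ?_
    by_cases hc : cell f a = cell f b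
    · rw [if_pos hc]
      exact prod_congr rfl fun j _ => (if_pos (congrFun hc j)).symm
    · rw [if_neg hc]
      obtain ⟨j, hj⟩ := Function.ne_iff.mp hc
      exact (prod_eq_zero (mem_univ j) (if_neg hj)).symm
  have hne : ∀ a b, (∑ f, if cell f a = cell f b then 0 else p f) ≤ 2 * D a b / t := by
    intro a b
    have : (∑ f, if cell f a = cell f b then 0 else p f) = 1 - (1 - D a b / W) ^ T := by
      rw [← heq, ← hp1, ← sum_sub_distrib]
      exact sum_congr rfl fun f _ => by split_ifs <;> ring
    rw [this]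
    have hx1 : D a b / W ≤ 1 := (div_le_one hWpos).mpr (hdW a b)
    have hB := one_add_mul_le_pow (a := -(D a b / W)) (by linarith) T
    have hT2 : (T : ℝ) ≤ 2 * W / t := by
      have := (Nat.ceil_lt_add_one (div_nonneg hWpos.le ht.le)).le
      have h1 : 1 ≤ W / t := (one_le_div ht).mpr hWt
      calc (T : ℝ) ≤ W / t + 1 := this
        _ ≤ 2 * W / t := by rw [mul_div_assoc]; linarith
    calc 1 - (1 - D a b / W) ^ T ≤ (T : ℝ) * (D a b / W) := by rw [← sub_eq_add_neg] at hB; linarith
      _ ≤ 2 * W / t * (D a b / W) :=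
          mul_le_mul_of_nonneg_right hT2 (div_nonneg (hd0 a b) hWpos.le)
      _ = 2 * D a b / t := by field_simp
  refine ⟨fun a b => ∑ f, p f * histDist (fun u => cell f (a u)) (fun u => cell f (b u)),
    IsCut.sum fun f => (isCut_histDist (cell f)).smul (hp f), ?_, ?_⟩
  · intro a b e c hc hclose
    calc ∑ f, p f * histDist (fun u => cell f (a u)) (fun u => cell f (b u))
        ≤ ∑ f, p f * (e + ∑ u : Fin s, ∑ v : Fin s,
            if (u : ℕ) + e = v ∧ cell f (a u) ≠ cell f (b v) then (1 : ℝ) else 0) :=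
          sum_le_sum fun f _ => mul_le_mul_of_nonneg_left (histDist_le _ _ e) (hp f)
      _ = e + ∑ u : Fin s, ∑ v : Fin s,
            if (u : ℕ) + e = v then (∑ f, if cell f (a u) = cell f (b v) then 0 else p f)
            else 0 := by
          simp only [mul_add, mul_sum, sum_add_distrib, ← sum_mul, hp1, one_mul]
          congr 1
          rw [sum_comm]
          refine sum_congr rfl fun u _ => ?_
          rw [sum_comm]
          refine sum_congr rfl fun v _ => ?_
          by_cases huv : (u : ℕ) + e = v <;> simp [huv]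
      _ ≤ e + ∑ u : Fin s, 2 * c / t := by
          refine add_le_add le_rfl (sum_le_sum fun u _ => ?_)
          have hc2 : 0 ≤ 2 * c / t := by positivity
          by_cases hu : (u : ℕ) + e < s
          · rw [Fintype.sum_eq_single (⟨(u : ℕ) + e, hu⟩ : Fin s)
              (fun v hv => if_neg fun h => hv (Fin.ext h.symm)), if_pos rfl]
            exact (hne _ _).trans (by
              gcongr
              exact hclose _ _ rfl)
          · rw [sum_eq_zero fun v _ => if_neg fun h => hu (by omega)]
            exact hc2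
      _ = e + s * (2 * c / t) := by simp
  · intro a b R hfar
    calc (s : ℝ) * (1 - (s : ℝ) ^ 2 * Real.exp (-R))
        = s * (1 - ∑ _u : Fin s, ∑ _v : Fin s, Real.exp (-R)) := by simp [sq, mul_assoc]
      _ ≤ s * (1 - ∑ u : Fin s, ∑ v : Fin s, (1 - D (a u) (b v) / W) ^ T) := by
          refine mul_le_mul_of_nonneg_left (sub_le_sub_left (sum_le_sum fun u _ =>
            sum_le_sum fun v _ => ?_) _) (Nat.cast_nonneg _)
          set d := D (a u) (b v) with hd
          have h0 : 0 ≤ 1 - d / W := sub_nonneg.mpr ((div_le_one hWpos).mpr (hdW _ _))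
          calc (1 - d / W) ^ T ≤ Real.exp (-(d / W)) ^ T :=
                pow_le_pow_left₀ h0 (by linarith [Real.add_one_le_exp (-(d / W))]) T
            _ = Real.exp ((T : ℝ) * -(d / W)) := (Real.exp_nat_mul _ _).symm
            _ ≤ Real.exp (-R) := by
                refine Real.exp_le_exp.mpr ?_
                have hRd : R ≤ d / t := (le_div_iff₀ ht).mpr (by linarith [hfar u v])
                have : d / t ≤ (T : ℝ) * (d / W) := by
                  calc d / t = W / t * (d / W) := by field_simp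
                    _ ≤ T * (d / W) := mul_le_mul_of_nonneg_right (Nat.le_ceil _)
                        (div_nonneg (hd0 _ _) hWpos.le)
                linarith
      _ = ∑ f, p f * (s * (1 - ∑ u : Fin s, ∑ v : Fin s,
            if cell f (a u) = cell f (b v) then (1 : ℝ) else 0)) := by
          have h2 : ∑ u : Fin s, ∑ v : Fin s, (1 - D (a u) (b v) / W) ^ T
              = ∑ f, ∑ u : Fin s, ∑ v : Fin s, if cell f (a u) = cell f (b v) then p f else 0 := by
            simp only [← heq]
            rw [sum_comm (γ := Fin T → Option ι₀)]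
            exact sum_congr rfl fun u _ => sum_comm
          rw [h2]
          conv_lhs => rw [← hp1, ← sum_sub_distrib, mul_sum]
          refine sum_congr rfl fun f _ => ?_
          simp only [mul_sub, mul_one, mul_sum, mul_ite, mul_zero]
          rw [mul_comm (p f) (s : ℝ)]
      _ ≤ _ := sum_le_sum fun f _ => mul_le_mul_of_nonneg_left (le_histDist _ _) (hp f)

end Vale.Agent.P238U
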