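import Vale.Agent.P238U.Cut
import Vale.Agent.P238U.EDTools
import Mathlib.Data.Nat.Log

/-! The recursion step of the upper bound on the L1 distortion of edit distance (P238): a cut
metric for words of `b + 1` blocks from one for words of one block. -/

namespace Vale.Agent.P238U

open Vale.Agent.P238 Finset

/-- Edit distance on words of length `L` embeds with distortion `α` as a cut metric. -/
def Good (L : ℕ) (α : ℝ) : Prop :=
  ∃ D : List Bool → List Bool → ℝ, IsCut D ∧ ∀ x y, x.length = L → y.length = L →
    (ED x y : ℝ) ≤ D x y ∧ D x y ≤ α * ED x y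

theorem win_length {x : List Bool} {a m : ℕ} (h : a + m ≤ x.length) : (win x a m).length = m := by
  simp [win]; omega

theorem win_win (x : List Bool) (a L u m : ℕ) (h : u + m ≤ L) :
    win (win x a L) u m = win x (a + u) m := by
  simp only [win, List.drop_take, List.drop_drop, List.take_take]
  rw [Nat.min_eq_left (by omega)]

theorem IsCut.discrete {X Y : Type} [Fintype X] [DecidableEq X] (g : Y → X) {c : ℝ} (hc : 0 ≤ c) :
    IsCut fun a b => if g a = g b then 0 else c := by
  refine ⟨X, inferInstance, fun _ => c / 2, fun z y => decide (g y = z),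
    fun _ => by positivity, fun a b => ?_⟩
  simp only [cutDist]
  by_cases h : g a = g b
  · simp [h]
  · rw [if_neg h]
    symm
    rw [Finset.sum_eq_add (g a) (g b) h (fun z _ hz => by simp [Ne.symm hz.1, Ne.symm hz.2])
      (by simp) (by simp)]
    simp [h, Ne.symm h]

/-- A word of blocks is at most as far from another as the blocks are. -/
theorem ED_le_blocks (L : ℕ) : ∀ (b : ℕ) (x y : List Bool), x.length = (b + 1) * L →
    y.length = (b + 1) * L →
    ED x y ≤ ∑ i ∈ range (b + 1), ED (win x (i * L) L) (win y (i * L) L)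
  | 0, x, y, hx, hy => by
    simp only [zero_add, one_mul] at hx hy
    simp [win, ← hx, List.take_of_length_le (hy.trans hx.symm).le]
  | b + 1, x, y, hx, hy => by
    have h := ED_le_blocks L b (x.drop L) (y.drop L)
      (by rw [List.length_drop, hx, Nat.succ_mul (b + 1) L]; omega)
      (by rw [List.length_drop, hy, Nat.succ_mul (b + 1) L]; omega)
    have e : ∀ (z : List Bool) i, win z ((i + 1) * L) L = win (z.drop L) (i * L) L := fun z i => by
      simp only [win, List.drop_drop, Nat.succ_mul, add_comm]
    have h1 := ED_append (x.take L) (x.drop L) (y.take L) (y.drop L)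
    rw [List.take_append_drop, List.take_append_drop] at h1
    rw [sum_range_succ']
    simp only [e]
    simp only [win, zero_mul, List.drop_zero] at h ⊢
    omega

/-- The metric of one block at one scale. -/
theorem scale_cut (hH : HistStmt) {D : List Bool → List Bool → ℝ} (hD : IsCut D) {L : ℕ} {α : ℝ}
    (hα : 0 ≤ α) (hG : ∀ x y, x.length = L → y.length = L →
      (ED x y : ℝ) ≤ D x y ∧ D x y ≤ α * ED x y)
    (b i s J : ℕ) (hi : i ≤ b) (hs0 : 0 < s) (hs : s ≤ L) (hJ : s * 2 ≤ 2 ^ J) :
    ∃ V : List Bool → List Bool → ℝ, IsCut V ∧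
      (∀ x y, x.length = (b + 1) * L → y.length = (b + 1) * L →
        5 * s < ED (win x (i * L) L) (win y (i * L) L) → (s : ℝ) / 2 ≤ V x y) ∧
      ∀ x y, x.length = (b + 1) * L → y.length = (b + 1) * L → ∀ (w : List Bool) (o : ℕ),
        (∀ a m, ED (win y (o + a) m) (win w a m) ≤ a + m - w.length) →
        V x y ≤ Nat.dist o (i * L) + 40 * J * α * ED (win x (i * L) L) w := by
  have hJ0 : 0 < J := by
    rcases Nat.eq_zero_or_pos J with rfl | h
    · simp at hJ; omega
    · exact h
  have hJR : (0 : ℝ) < J := by exact_mod_cast hJ0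
  have hsR : (0 : ℝ) < s := by exact_mod_cast hs0
  have hiL : i * L + L ≤ (b + 1) * L := by rw [← Nat.succ_mul]; gcongr; omega
  obtain ⟨m, hm⟩ := Nat.le.dest hs
  obtain ⟨V, hV, hup, hlow⟩ := hH hD s (t := (s : ℝ) / (4 * J)) (by positivity)
  let f : List Bool → Fin s → List Bool :=
    fun z u => win z (i * L + u) m ++ List.replicate (L - m) false
  have hlen : ∀ z : List Bool, z.length = (b + 1) * L → ∀ u : Fin s, (f z u).length = L := by
    intro z hz u
    have := u.isLt
    simp only [f, List.length_append, List.length_replicate]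
    rw [win_length (by omega)]
    omega
  refine ⟨fun x y => V (f x) (f y), hV.comap f, fun x y hx hy hδ => ?_, fun x y hx hy w o hw => ?_⟩
  · have hfar : ∀ u v, (s : ℝ) / (4 * J) * (2 * J : ℕ) ≤ D (f x u) (f y v) := by
      intro u v
      have h1 := u.isLt
      have h2 := v.isLt
      have h3 := ED_le_win (win x (i * L) L) (win y (i * L) L) u v m
      rw [win_win _ _ _ _ _ (by omega), win_win _ _ _ _ _ (by omega), win_length (by omega),
        win_length (by omega)] at h3
      have h4 := ED_le_suffix (win x (i * L + u) m) (win y (i * L + v) m)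
        (List.replicate (L - m) false)
      have h5 : (s : ℝ) ≤ 2 * ED (f x u) (f y v) := by
        have : s ≤ 2 * ED (f x u) (f y v) := by
          show s ≤ 2 * ED (_ ++ _) (_ ++ _)
          omega
        exact_mod_cast this
      have h6 := (hG _ _ (hlen x hx u) (hlen y hy v)).1
      have h7 : (s : ℝ) / (4 * J) * (2 * J : ℕ) = s / 2 := by
        push_cast; field_simp; ring
      rw [h7]
      linarith
    refine le_trans ?_ (hlow _ _ _ hfar)
    have h8 : (4 : ℝ) * (s : ℝ) ^ 2 ≤ Real.exp (2 * J : ℕ) := by
      have e1 : ((s * 2 : ℕ) : ℝ) ^ 2 ≤ ((2 : ℝ) ^ J) ^ 2 := by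
        gcongr; exact_mod_cast hJ
      have e2 : ((2 : ℝ) ^ J) ^ 2 ≤ Real.exp 1 ^ (2 * J) := by
        rw [← pow_mul, mul_comm J 2]
        gcongr
        linarith [Real.add_one_le_exp 1]
      rw [← Real.exp_nat_mul, mul_one] at e2
      push_cast at e1 e2 ⊢
      nlinarith
    have h9 : (s : ℝ) ^ 2 * Real.exp (-((2 * J : ℕ) : ℝ)) ≤ 1 / 4 := by
      rw [Real.exp_neg, ← div_eq_mul_inv, div_le_iff₀ (Real.exp_pos _)]
      linarith
    nlinarith
  · set k := ED (win x (i * L) L) w with hk
    have hL := length_le_ED (win x (i * L) L) w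
    rw [win_length (by omega)] at hL
    have hnear : ∀ u v : Fin s, i * L + v = o + u → D (f x u) (f y v) ≤ 5 * α * k := by
      intro u v huv
      have h1 := u.isLt
      have h2 := v.isLt
      have h3 := ED_win_le (win x (i * L) L) w u m (by rw [win_length (by omega)]; omega)
      rw [win_win _ _ _ _ _ (by omega)] at h3
      have h4 := hw u m
      rw [← huv, ED_comm] at h4
      have h5 := ED_triangle (win x (i * L + u) m) (win w u m) (win y (i * L + v) m)
      have h6 := ED_append (win x (i * L + u) m) (List.replicate (L - m) false)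
        (win y (i * L + v) m) (List.replicate (L - m) false)
      rw [ED_self] at h6
      have h7 : ED (f x u) (f y v) ≤ 5 * k := by
        show ED (_ ++ _) (_ ++ _) ≤ _
        omega
      calc D (f x u) (f y v) ≤ α * ED (f x u) (f y v) := (hG _ _ (hlen x hx u) (hlen y hy v)).2
        _ ≤ α * (5 * k : ℕ) := by gcongr
        _ = 5 * α * k := by push_cast; ring
    have hfin : (s : ℝ) * (2 * (5 * α * k) / ((s : ℝ) / (4 * J))) = 40 * J * α * k := by
      field_simp; ring
    rcases le_total (i * L) o with h | h
    · have := hup (f x) (f y) (o - i * L) (5 * α * k) (by positivity)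
        (fun u v huv => hnear u v (by omega))
      rw [Nat.dist_comm, Nat.dist_eq_sub_of_le h]
      linarith
    · have := hup (f y) (f x) (i * L - o) (5 * α * k) (by positivity)
        (fun v u huv => by rw [hD.comm]; exact hnear u v (by omega))
      rw [hV.comm (f y)] at this
      rw [Nat.dist_eq_sub_of_le h]
      linarith

/-- Part C: the recursion step. -/
theorem step (hH : HistStmt) {L : ℕ} {α : ℝ} (hα : 0 ≤ α) (hL : 1 ≤ L) (h : Good L α) (b : ℕ) :
    Good ((b + 1) * L) (5 * (b + 1) + 20 * (Nat.log 2 L + 1 : ℕ) * (b + 1) +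
      800 * ((Nat.log 2 L + 1 : ℕ) : ℝ) ^ 2 * α) := by
  obtain ⟨D, hD, hG⟩ := h
  set J := Nat.log 2 L + 1 with hJ
  have hsL : ∀ j : Fin J, 2 ^ (j : ℕ) ≤ L := fun j =>
    le_trans (Nat.pow_le_pow_right (by norm_num) (by omega)) (Nat.pow_log_le_self 2 (by omega))
  have hsJ : ∀ j : Fin J, 2 ^ (j : ℕ) * 2 ≤ 2 ^ J := fun j => by
    rw [← pow_succ]; exact Nat.pow_le_pow_right (by norm_num) j.isLt
  choose V hV hlow hup using fun (i : Fin (b + 1)) (j : Fin J) =>
    scale_cut hH hD hα hG b i (2 ^ (j : ℕ)) J (by omega) (by positivity) (hsL j) (hsJ j)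
  let g : Fin (b + 1) → List Bool → Fin L → Bool :=
    fun i z p => (win z (i * L) L).getD p false
  refine ⟨fun x y => ∑ i : Fin (b + 1),
    ((if g i x = g i y then 0 else 5) + 20 * ∑ j, V i j x y),
    IsCut.sum fun i => (IsCut.discrete (g i) (by norm_num)).add
      ((IsCut.sum fun j => hV i j).smul (by norm_num)), fun x y hx hy => ⟨?_, ?_⟩⟩
  · have hiL : ∀ i : Fin (b + 1), (i : ℕ) * L + L ≤ (b + 1) * L := fun i => by
      rw [← Nat.succ_mul]; gcongr; omega
    have h0 := ED_le_blocks L b x y hx hy
    rw [← Fin.sum_univ_eq_sum_range (fun i => ED (win x (i * L) L) (win y (i * L) L))] at h0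
    refine le_trans (Nat.cast_le.2 h0) ?_
    rw [Nat.cast_sum]
    refine sum_le_sum fun i _ => ?_
    have hV0 : (0 : ℝ) ≤ ∑ j, V i j x y := sum_nonneg fun j _ => (hV i j).nonneg x y
    set δ := ED (win x (i * L) L) (win y (i * L) L) with hδ
    rcases le_or_gt δ 5 with h5 | h5
    · split_ifs with he
      · have : win x (i * L) L = win y (i * L) L := by
          have l1 := win_length (x := x) (a := i * L) (m := L) (hx ▸ hiL i)
          have l2 := win_length (x := y) (a := i * L) (m := L) (hy ▸ hiL i)
          refine List.ext_getElem (l1.trans l2.symm) fun p p1 p2 => ?_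
          have := congrFun he ⟨p, l1 ▸ p1⟩
          simpa [g, p1, p2, List.getD] using this
        rw [hδ, this, ED_self]
        simp only [Nat.cast_zero, zero_add]
        positivity
      · have : (δ : ℝ) ≤ 5 := by exact_mod_cast h5
        linarith
    · have h2L := ED_le_length (win x (i * L) L) (win y (i * L) L)
      rw [win_length (hx ▸ hiL i), win_length (hy ▸ hiL i)] at h2L
      set j := Nat.log 2 ((δ - 1) / 5) with hj
      have h1 : 2 ^ j ≤ (δ - 1) / 5 := Nat.pow_log_le_self 2 (by omega)
      have h2 : (δ - 1) / 5 < 2 ^ j * 2 := by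
        rw [← pow_succ]; exact Nat.lt_pow_succ_log_self (by norm_num) _
      have hjJ : j < J := by
        rw [hJ, Nat.lt_succ_iff]
        exact Nat.le_log_of_pow_le (by norm_num) (by omega)
      have h3 := hlow i ⟨j, hjJ⟩ x y hx hy (by show 5 * 2 ^ j < _; omega)
      have h4 : V i ⟨j, hjJ⟩ x y ≤ ∑ j, V i j x y :=
        single_le_sum (fun j _ => (hV i j).nonneg x y) (mem_univ _)
      have h6 : (δ : ℝ) ≤ 10 * (2 ^ j : ℕ) := by
        have : δ ≤ 10 * 2 ^ j := by omega
        exact_mod_cast this
      have h7 : (0 : ℝ) ≤ if g i x = g i y then 0 else 5 := by split_ifs <;> norm_num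
      push_cast at h3 h6
      linarith
  · obtain ⟨ys, o, hpt, hsum⟩ := exists_blocks L b x y hx
    rw [← Fin.sum_univ_eq_sum_range (fun i => ED (win x (i * L) L) (ys i))] at hsum
    set k : Fin (b + 1) → ℕ := fun i => ED (win x (i * L) L) (ys i)
    have hb : ∀ i : Fin (b + 1), ((if g i x = g i y then 0 else 5) + 20 * ∑ j, V i j x y : ℝ) ≤
        (5 + 20 * J) * ED x y + 800 * (J : ℝ) ^ 2 * α * k i := by
      intro i
      obtain ⟨-, hd, he⟩ := hpt i (by omega)
      have h1 : ∀ j, V i j x y ≤ (ED x y : ℝ) + 40 * J * α * k i := fun j => by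
        refine (hup i j x y hx hy (ys i) (o i) he).trans ?_
        gcongr
      have h2 := sum_le_sum (s := univ) fun j _ => h1 j
      simp only [sum_const, card_univ, Fintype.card_fin, nsmul_eq_mul] at h2
      have h3 : (if g i x = g i y then 0 else 5 : ℝ) ≤ 5 * ED x y := by
        split_ifs with hg
        · positivity
        · have : 1 ≤ ED x y := by
            by_contra h0
            exact hg (by rw [ED_eq_zero (x := x) (y := y) (by omega)])
          have : (1 : ℝ) ≤ ED x y := by exact_mod_cast this
          linarith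
      nlinarith
    refine (sum_le_sum fun i _ => hb i).trans ?_
    rw [sum_add_distrib, sum_const, card_univ, Fintype.card_fin, nsmul_eq_mul, ← mul_sum]
    have hs : (∑ i, (k i : ℝ)) ≤ ED x y := by exact_mod_cast hsum
    have := mul_le_mul_of_nonneg_left hs (by positivity : (0 : ℝ) ≤ 800 * (J : ℝ) ^ 2 * α)
    push_cast
    linarith

end Vale.Agent.P238U
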