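import Vale.Agent.P238U.Final
import Vale.Agent.P238U.Hist

/-! The upper bound exp(C √(log n log log n)) on the L1 distortion of edit distance (P238), after
Ostrovsky and Rabani, with no hypothesis. -/

namespace Vale.Agent.P238U

open Vale.Agent.P238

/-- Edit distance on binary words of length `n` embeds into ℓ¹ with distortion
exp(C √(log n log log n)). -/
theorem upperU :
    ∃ C : ℝ, 0 < C ∧ ∃ n0 : ℕ, ∀ n ≥ n0, ∃ (f : (Fin n → Bool) → lp (fun _ : ℕ => ℝ) 1) (A B : ℝ),
      (∀ x y, ‖f x - f y‖ ≤ A * wordED x y ∧ (wordED x y : ℝ) ≤ B * ‖f x - f y‖) ∧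
      A * B ≤ Real.exp (C * √(Real.log n * Real.log (Real.log n))) :=
  upper hist

end Vale.Agent.P238U
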